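import Vale.Agent.P299.H996.D1.Ric
import Vale.Agent.P299.H996.D6.Descent
import Vale.Agent.P299.H723.D1.Spl
import Vale.Agent.P299.H227.Fld

/-!
# P299, D1-MET: the metric part of `Split`
-/

open scoped Manifold ContDiff ComplexOrder Topology
open Complex Vale.Agent.P272.K Vale.Agent.P278.H837 Vale.Agent.P299.D Vale.Agent.P299.H956
open Vale.Agent.P299.D1 (Pr)

set_option linter.unusedVariables false
set_option linter.unusedSectionVars false

noncomputable section

namespace Vale.Agent.P299.H996.D1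

section

variable {k n : ℕ} {X M : Type} [TopologicalSpace X] [ChartedSpace (Cm n) X]
  [IsManifold 𝓘(ℂ, Cm n) ω X] [TopologicalSpace M] [ChartedSpace (Cm n) M]
  [IsManifold 𝓘(ℂ, Cm n) ω M] {π : M → X} {w : FormM n X}

/-- the bijection of indices of a product decomposition -/
def sigP (P : Pr k n M π) : (Σ i, Fin (P.d i)) ≃ Fin n := finSigmaFinEquiv.trans (finCongr P.dsum)

theorem pd (P : Pr k n M π) : PD (sigP P) P.Φ := ⟨P.Φ_hol, P.slice_hol, P.jac_inj⟩

/-- the projections `pullE π (Q i)` satisfy `QD` -/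
theorem qd (hl : IsLocalDiffeomorph 𝓘(ℂ, Cm n) 𝓘(ℂ, Cm n) ω π) (hw : IsKahler w)
    (P : Pr k n M π) {Q : Fin k → FormM n X} (hQ : ∀ i, ParEnd w (Q i))
    (hsum : ∀ e x, At e x → ∑ i, Q i e (e x) = 1)
    (hker : ∀ i j, j ≠ i → ∀ (e : Chart n M) (m : M) (f : Chart (P.d j) (P.Y j)),
      At e m → At f (P.Φ m j) → jacF (fun m => P.Φ m j) e f m * pullE π (Q i) e (e m) = 0) :
    QD P.d P.Φ (pullM π w) (fun i => pullE π (Q i)) where
  sa i e m h := pullE_sa hw.isForm (hQ i).hol (hQ i).sa hl.contMDiff (immersive_of_localDiffeo hl)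
    e m h
  sum e m h := by
    have hc := at_chartAt (n := n) (π m)
    have hi : Immersive n n π := immersive_of_localDiffeo hl
    have hJ := jac_isUnit hi h hc
    have h1 : ∀ i, pullE π (Q i) e (e m) = (jacF π e (chartAt (Cm n) (π m)) m)⁻¹ *
        Q i (chartAt (Cm n) (π m)) (chartAt (Cm n) (π m) (π m)) *
        jacF π e (chartAt (Cm n) (π m)) m := fun i =>
      pullE_eq (hQ i).hol hl.contMDiff hi h hc
    rw [Finset.sum_congr rfl fun i _ => h1 i, ← Matrix.sum_mul, ← Matrix.mul_sum, hsum _ _ hc,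
      Matrix.mul_one, Matrix.nonsing_inv_mul _ hJ]
  ker i j hj e e' m h h' := hker j i (Ne.symm hj) e m e' h h'

/-- deck transformations are isometries -/
theorem deck_isom (hl : IsLocalDiffeomorph 𝓘(ℂ, Cm n) 𝓘(ℂ, Cm n) ω π) (hw : IsForm w)
    (γ : Deck π) (e : Chart n M) (m : M) (h : At e m) :
    pullM ((γ : M ≃ₜ M) : M → M) (pullM π w : FormM n M) e (e m) = pullM π w e (e m) := by
  rw [pullM_comp hw (H996.deck_hol hl γ) hl.contMDiff h]
  have h2 : (fun y => π ((γ : M ≃ₜ M) y)) = π := funext γ.2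
  rw [h2]

/-- **D1-MET**: the metric part of `Split` (any number of factors, no curvature hypothesis) -/
theorem exists_metric [Nonempty M] (hl : IsLocalDiffeomorph 𝓘(ℂ, Cm n) 𝓘(ℂ, Cm n) ω π)
    (hw : IsKahler w) (P : Pr k n M π) {Q : Fin k → FormM n M}
    (hQ : QD P.d P.Φ (pullM π w) Q) :
    ∃ wY : (i : Fin k) → FormM (P.d i) (P.Y i), (∀ i, IsKahler (wY i)) ∧
      (∀ (e : Chart n M) (m : M), At e m →
        pullM π w e (e m) = ∑ i, pullM (fun m => P.Φ m i) (wY i) e (e m)) ∧
      (∀ i γ (e : Chart (P.d i) (P.Y i)) y, At e y →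
        pullM (P.ρ i γ) (wY i) e (e y) = wY i e (e y)) ∧
      (RicNonneg w → ∀ i, RicNonneg (wY i)) ∧
      (∀ i, RicKills (pullM π w : FormM n M) (Q i) → RicZero (wY i)) ∧
      H227.Fld.IsProd (n := n) (d := P.d) (fun i m => P.Φ m i) (ric (pullM π w : FormM n M))
        (fun i => ric (wY i)) := by
  have hi : Immersive n n π := immersive_of_localDiffeo hl
  have hM : IsKahler (pullM π w : FormM n M) := isKahler_pullM hw hl.contMDiff hi
  have hP := pd P
  obtain ⟨m0⟩ := ‹Nonempty M›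
  have hprod : ∀ (e : Chart n M) (m : M), At e m →
      pullM π w e (e m) = ∑ i, pullM (fun m => P.Φ m i) (wS P.d P.Φ (pullM π w) (P.Φ m0) i) e (e m) :=
    fun e m h => prod_wS hM hP hQ (P.Φ m0) h
  have hY := fun i => kahler_wS hM hP (P.Φ m0) i
  refine ⟨fun i => wS P.d P.Φ (pullM π w) (P.Φ m0) i, hY, hprod, ?_, ?_, ?_, ?_⟩
  · intro i γ e y h
    exact rho_iso hM hP hQ (H996.deck_hol hl γ) (deck_isom hl hw.isForm γ)
      (ρ := fun i => P.ρ i γ) (fun i => P.ρ_hol i γ) (P.equiv γ) (P.Φ m0) i h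
  · intro hric i
    refine ricNonneg_factor hP (fun i => (hY i).toIsHermitian) hprod ?_ i
    intro e m h
    have hc := at_chartAt (n := n) (π m)
    rw [ric_local hw.toIsHermitian hl.contMDiff hi h hc]
    have h2 : (jacF π e (chartAt (Cm n) (π m)) m).transpose =
        ((jacF π e (chartAt (Cm n) (π m)) m).map (starRingEnd ℂ)).conjTranspose := by
      ext i j
      simp [Matrix.conjTranspose_apply]
    rw [h2]
    exact (hric _ _ hc).conjTranspose_mul_mul_same _
  · intro i hric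
    exact ricZero_factor hP hQ (fun i => (hY i).toIsHermitian) hprod i hric
  · intro e m h
    rw [ric_prod hP (fun i => (hY i).toIsHermitian) hprod h fun i => at_chartAt _]
    refine Finset.sum_congr rfl fun i _ => ?_
    rw [pullM_eq (isForm_ric (hY i).toIsHermitian) (P.Φ_hol i).contMDiffAt h (at_chartAt _)]

end

end Vale.Agent.P299.H996.D1
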