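import Vale.Agent.P299.H996.D6.Prod
import Mathlib.Analysis.Calculus.InverseFunctionTheorem.ContDiff

/-!
# Product coordinates on `M ≃ₜ Π i, Y i`
-/

open scoped Manifold ContDiff ComplexOrder Topology
open Complex Vale.Agent.P272.K Vale.Agent.P299.D Vale.Agent.P299.H956

set_option linter.unusedVariables false
set_option linter.unusedSectionVars false

noncomputable section

namespace Vale.Agent.P299.H996.D1

/-- a continuous local right inverse of a local biholomorphism is holomorphic -/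
theorem contDiffAt_of_inverse {n : ℕ} {F G : Cm n → Cm n} {z0 : Cm n}
    (hF : ContDiffAt ℂ ω F z0) (hdet : (jmR F z0).det ≠ 0) (hG : ContinuousAt G (F z0))
    (hG0 : G (F z0) = z0) (hFG : ∀ᶠ ζ in 𝓝 (F z0), F (G ζ) = ζ) :
    ContDiffAt ℂ ω G (F z0) := by
  have hd : DifferentiableAt ℂ F z0 := hF.differentiableAt (by simp)
  let L : Cm n →L[ℂ] Cm n := fderiv ℂ F z0
  have hinj : Function.Injective L := by
    rw [injective_iff_map_eq_zero]
    intro u hu
    have h1 : (jmR F z0).mulVec u = 0 := by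
      rw [← jmR_mulVec hd]; exact hu
    by_contra hne
    exact hdet (Matrix.exists_mulVec_eq_zero_iff.1 ⟨u, hne, h1⟩)
  let E : Cm n ≃L[ℂ] Cm n :=
    (LinearEquiv.ofInjectiveEndo L.toLinearMap hinj).toContinuousLinearEquiv
  have hE : (E : Cm n →L[ℂ] Cm n) = L := by
    ext v : 1
    rfl
  have hF' : HasFDerivAt F (E : Cm n →L[ℂ] Cm n) z0 := by
    rw [hE]; exact hd.hasFDerivAt
  have h1 := hF.to_localInverse hF' (by simp)
  refine h1.congr_of_eventuallyEq ?_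
  have hs := hF.hasStrictFDerivAt' hF' (by simp)
  have h2 : ∀ᶠ z in 𝓝 z0, hs.localInverse F E z0 (F z) = z := hs.eventually_left_inverse
  have h3 : Filter.Tendsto G (𝓝 (F z0)) (𝓝 z0) := by
    have := hG
    rwa [ContinuousAt, hG0] at this
  filter_upwards [h3.eventually h2, hFG] with ζ hζ hζ2
  rw [hζ2] at hζ
  exact hζ.symm

section coord

variable {r n : ℕ} {d : Fin r → ℕ} (σ : (Σ i, Fin (d i)) ≃ Fin n)

/-- the `i`-th block of coordinates -/
def blk (i : Fin r) : Cm n →L[ℂ] Cm (d i) :=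
  ContinuousLinearMap.pi fun a => ContinuousLinearMap.proj (σ ⟨i, a⟩)

theorem blk_apply (i : Fin r) (ζ : Cm n) (a : Fin (d i)) : blk σ i ζ a = ζ (σ ⟨i, a⟩) := rfl

/-- assembling the blocks -/
def asm (f : (i : Fin r) → Cm (d i)) : Cm n := fun k => f (σ.symm k).1 (σ.symm k).2

theorem asm_apply (f : (i : Fin r) → Cm (d i)) (i : Fin r) (a : Fin (d i)) :
    asm σ f (σ ⟨i, a⟩) = f i a := by
  unfold asm
  rw [Equiv.symm_apply_apply]

theorem blk_asm (f : (i : Fin r) → Cm (d i)) (i : Fin r) : blk σ i (asm σ f) = f i := by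
  ext a
  rw [blk_apply, asm_apply]

theorem asm_blk (ζ : Cm n) : asm σ (fun i => blk σ i ζ) = ζ := by
  ext k
  show ζ (σ ⟨(σ.symm k).1, (σ.symm k).2⟩) = ζ k
  congr 1
  exact σ.apply_symm_apply k

theorem ext_blk {ζ ζ' : Cm n} (h : ∀ i, blk σ i ζ = blk σ i ζ') : ζ = ζ' := by
  rw [← asm_blk σ ζ, ← asm_blk σ ζ']
  congr 1
  funext i
  exact h i

theorem continuous_asm : Continuous (asm σ : ((i : Fin r) → Cm (d i)) → Cm n) :=
  continuous_pi fun k => (continuous_apply _).comp (continuous_apply _)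

theorem contDiffAt_asm {k : ℕ} {f : Cm k → (i : Fin r) → Cm (d i)} {z : Cm k}
    (h : ∀ i, ContDiffAt ℂ ω (fun y => f y i) z) : ContDiffAt ℂ ω (fun y => asm σ (f y)) z := by
  rw [contDiffAt_pi]
  intro q
  exact (contDiffAt_pi.1 (h (σ.symm q).1)) (σ.symm q).2

end coord

section mfd

variable {r n : ℕ} {d : Fin r → ℕ} {M : Type*} [TopologicalSpace M] [ChartedSpace (Cm n) M]
  [IsManifold 𝓘(ℂ, Cm n) ω M] {Y : Fin r → Type*} [∀ i, TopologicalSpace (Y i)]
  [∀ i, ChartedSpace (Cm (d i)) (Y i)] [∀ i, IsManifold 𝓘(ℂ, Cm (d i)) ω (Y i)]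

/-- a product structure on `M` in the sense of `Split` -/
structure PD (σ : (Σ i, Fin (d i)) ≃ Fin n) (Φ : M ≃ₜ ((i : Fin r) → Y i)) : Prop where
  hol : ∀ i, ContMDiff 𝓘(ℂ, Cm n) 𝓘(ℂ, Cm (d i)) ω (fun m => Φ m i)
  slice : ∀ i (y : (i : Fin r) → Y i), ContMDiff 𝓘(ℂ, Cm (d i)) 𝓘(ℂ, Cm n) ω
    (fun z : Y i => Φ.symm (Function.update y i z))
  inj : ∀ (e : Chart n M) (m : M) (e' : (i : Fin r) → Chart (d i) (Y i)), At e m →
    (∀ i, At (e' i) (Φ m i)) → ∀ u : Cm n,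
    (∀ i, (jacF (fun m => Φ m i) e (e' i) m).mulVec u = 0) → u = 0

variable {σ : (Σ i, Fin (d i)) ≃ Fin n} {Φ : M ≃ₜ ((i : Fin r) → Y i)}

/-- product coordinates read in a chart of `M` -/
def toP (σ : (Σ i, Fin (d i)) ≃ Fin n) (Φ : M ≃ₜ ((i : Fin r) → Y i)) (e : Chart n M)
    (e' : (i : Fin r) → Chart (d i) (Y i)) (z : Cm n) : Cm n :=
  asm σ fun i => e' i (Φ (e.symm z) i)

/-- the inverse: a chart of `M` read in product coordinates -/
def fromP (σ : (Σ i, Fin (d i)) ≃ Fin n) (Φ : M ≃ₜ ((i : Fin r) → Y i)) (e : Chart n M)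
    (e' : (i : Fin r) → Chart (d i) (Y i)) (ζ : Cm n) : Cm n :=
  e (Φ.symm fun i => (e' i).symm (blk σ i ζ))

variable {e : Chart n M} {e' : (i : Fin r) → Chart (d i) (Y i)} {m : M}

theorem toP_at (h : At e m) : toP σ Φ e e' (e m) = asm σ fun i => e' i (Φ m i) := by
  unfold toP
  rw [h.left_inv]

theorem blk_toP (h : At e m) (i : Fin r) : blk σ i (toP σ Φ e e' (e m)) = e' i (Φ m i) := by
  rw [toP_at h, blk_asm]

theorem toP_hol (hP : PD σ Φ) (h : At e m) (h' : ∀ i, At (e' i) (Φ m i)) :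
    ContDiffAt ℂ ω (toP σ Φ e e') (e m) :=
  contDiffAt_asm σ fun i => rep_hol (hP.hol i).contMDiffAt h (h' i)

theorem jmR_toP (hP : PD σ Φ) (h : At e m) (h' : ∀ i, At (e' i) (Φ m i)) :
    jmR (toP σ Φ e e') (e m) =
      (stack fun i => jacF (fun m => Φ m i) e (e' i) m).submatrix σ.symm id := by
  rfl

theorem jmR_toP_det (hP : PD σ Φ) (h : At e m) (h' : ∀ i, At (e' i) (Φ m i)) :
    (jmR (toP σ Φ e e') (e m)).det ≠ 0 := by
  rw [jmR_toP hP h h']
  exact sdet_ne_zero σ _ (hP.inj e m e' h h')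

theorem fromP_toP (hP : PD σ Φ) (h : At e m) (h' : ∀ i, At (e' i) (Φ m i)) :
    fromP σ Φ e e' (toP σ Φ e e' (e m)) = e m := by
  unfold fromP
  have h1 : (fun i => (e' i).symm (blk σ i (toP σ Φ e e' (e m)))) = Φ m := by
    funext i
    rw [blk_toP h, (h' i).left_inv]
  rw [h1, Φ.symm_apply_apply]

/-- the point of `M` with product coordinates `ζ` -/
def ptP (σ : (Σ i, Fin (d i)) ≃ Fin n) (Φ : M ≃ₜ ((i : Fin r) → Y i))
    (e' : (i : Fin r) → Chart (d i) (Y i)) (ζ : Cm n) : M :=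
  Φ.symm fun i => (e' i).symm (blk σ i ζ)

theorem ptP_at (h' : ∀ i, At (e' i) (Φ m i)) :
    ptP σ Φ e' (asm σ fun i => e' i (Φ m i)) = m := by
  unfold ptP
  have h1 : (fun i => (e' i).symm (blk σ i (asm σ fun i => e' i (Φ m i)))) = Φ m := by
    funext i
    rw [blk_asm, (h' i).left_inv]
  rw [h1, Φ.symm_apply_apply]

theorem continuousAt_ptP (h' : ∀ i, At (e' i) (Φ m i)) :
    ContinuousAt (ptP σ Φ e') (asm σ fun i => e' i (Φ m i)) := by
  unfold ptP
  refine Φ.symm.continuous.continuousAt.comp ?_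
  rw [continuousAt_pi]
  intro i
  refine ContinuousAt.comp (g := (e' i).symm) ?_ (blk σ i).continuous.continuousAt
  rw [blk_asm]
  exact (e' i).continuousAt_symm (h' i).mem_target

/-- near the base point everything is in the charts -/
theorem eventually_ptP (h : At e m) (h' : ∀ i, At (e' i) (Φ m i)) :
    ∀ᶠ ζ in 𝓝 (asm σ fun i => e' i (Φ m i)), At e (ptP σ Φ e' ζ) ∧
      (∀ i, At (e' i) (Φ (ptP σ Φ e' ζ) i)) ∧ ∀ i, e' i (Φ (ptP σ Φ e' ζ) i) = blk σ i ζ := by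
  have h1 : ∀ᶠ ζ in 𝓝 (asm σ fun i => e' i (Φ m i)), ptP σ Φ e' ζ ∈ e.source := by
    have := continuousAt_ptP (σ := σ) (Φ := Φ) h'
    refine this.eventually (e.open_source.mem_nhds ?_)
    rw [ptP_at h']; exact h.2
  have h2 : ∀ᶠ ζ in 𝓝 (asm σ fun i => e' i (Φ m i)), ∀ i, blk σ i ζ ∈ (e' i).target := by
    rw [Filter.eventually_all]
    intro i
    refine (blk σ i).continuous.continuousAt.eventually ((e' i).open_target.mem_nhds ?_)
    rw [blk_asm]
    exact (h' i).mem_target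
  filter_upwards [h1, h2] with ζ hζ1 hζ2
  have h3 : ∀ i, Φ (ptP σ Φ e' ζ) i = (e' i).symm (blk σ i ζ) := by
    intro i
    unfold ptP
    rw [Φ.apply_symm_apply]
  refine ⟨⟨h.1, hζ1⟩, fun i => ?_, fun i => ?_⟩
  · rw [h3]
    exact At.of_target (h' i).1 (hζ2 i)
  · rw [h3, (e' i).right_inv (hζ2 i)]

theorem toP_fromP (h : At e m) (h' : ∀ i, At (e' i) (Φ m i)) :
    ∀ᶠ ζ in 𝓝 (asm σ fun i => e' i (Φ m i)), toP σ Φ e e' (fromP σ Φ e e' ζ) = ζ := by
  filter_upwards [eventually_ptP (σ := σ) h h'] with ζ hζ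
  show toP σ Φ e e' (e (ptP σ Φ e' ζ)) = ζ
  rw [toP_at hζ.1]
  refine ext_blk σ fun i => ?_
  rw [blk_asm, hζ.2.2]

/-- **JH.** `Φ.symm` is holomorphic in product coordinates. -/
theorem fromP_hol (hP : PD σ Φ) (h : At e m) (h' : ∀ i, At (e' i) (Φ m i)) :
    ContDiffAt ℂ ω (fromP σ Φ e e') (asm σ fun i => e' i (Φ m i)) := by
  have h1 := toP_at (σ := σ) (Φ := Φ) (e' := e') h
  rw [← h1]
  refine contDiffAt_of_inverse (toP_hol hP h h') (jmR_toP_det hP h h') ?_ (fromP_toP hP h h') ?_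
  · rw [h1]
    have h2 : ContinuousAt e (ptP σ Φ e' (asm σ fun i => e' i (Φ m i))) := by
      rw [ptP_at h']; exact e.continuousAt h.2
    exact ContinuousAt.comp (g := e) h2 (continuousAt_ptP h')
  · rw [h1]
    exact toP_fromP h h'

end mfd

end Vale.Agent.P299.H996.D1
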