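import Vale.Agent.P299.H996.D1.Coord

/-!
# A Kähler metric with a parallel splitting is a product metric (slices)
-/

open scoped Manifold ContDiff ComplexOrder Topology
open Complex Vale.Agent.P272.K Vale.Agent.P299.D Vale.Agent.P299.H956

set_option linter.unusedVariables false
set_option linter.unusedSectionVars false

noncomputable section

namespace Vale.Agent.P299.H996.D1

/-- holomorphic and antiholomorphic derivatives zero => real derivative zero -/
theorem fderiv_zero_of_dz {n : ℕ} {f : Cm n → ℂ} {z : Cm n} {k : Fin n}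
    (h1 : dz k f z = 0) (h2 : dzb k f z = 0) (c : ℂ) :
    fderiv ℝ f z (Pi.single k c) = 0 := by
  unfold dz at h1
  unfold dzb at h2
  set A := fderiv ℝ f z (Pi.single k 1)
  set B := fderiv ℝ f z (Pi.single k Complex.I)
  have hA : A = 0 := by linear_combination h1 + h2
  have hB : B = 0 := by
    have h3 : Complex.I * B = 0 := by linear_combination h2 - h1
    exact (mul_eq_zero.1 h3).resolve_left Complex.I_ne_zero
  have hc : (Pi.single k c : Cm n) = c.re • (Pi.single k 1 : Cm n) +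
      c.im • (Pi.single k Complex.I : Cm n) := by
    ext j
    by_cases hj : j = k
    · subst hj
      simp only [Pi.single_eq_same, Pi.add_apply, Pi.smul_apply, Complex.real_smul, mul_one]
      exact (Complex.re_add_im c).symm
    · simp [Pi.single_eq_of_ne hj]
  rw [hc, map_add, map_smul, map_smul]
  show c.re • A + c.im • B = 0
  rw [hA, hB]; simp

/-- a function whose derivatives vanish in the directions of the segment is constant on it -/
theorem const_on_segment {n : ℕ} {f : Cm n → ℂ} {x y : Cm n} (s : Set (Cm n)) (hs : Convex ℝ s)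
    (hx : x ∈ s) (hy : y ∈ s) (hd : ∀ z ∈ s, DifferentiableAt ℝ f z)
    (h0 : ∀ z ∈ s, fderiv ℝ f z (y - x) = 0) : f x = f y := by
  have hz : ∀ t ∈ Set.Icc (0 : ℝ) 1, x + t • (y - x) ∈ s := fun t ht => by
    have := hs.add_smul_sub_mem hx hy ht
    exact this
  have hderiv : ∀ t ∈ Set.Icc (0 : ℝ) 1, HasDerivAt (fun t : ℝ => f (x + t • (y - x))) 0 t := by
    intro t ht
    have h1 : HasDerivAt (fun t : ℝ => x + t • (y - x)) (y - x) t := by
      have := ((hasDerivAt_id t).smul_const (y - x)).const_add x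
      simpa using this
    have h2 := (hd _ (hz t ht)).hasFDerivAt.comp_hasDerivAt t h1
    rw [h0 _ (hz t ht)] at h2
    exact h2
  have := constant_of_has_deriv_right_zero (f := fun t : ℝ => f (x + t • (y - x))) (a := 0) (b := 1)
    (fun t ht => (hderiv t ht).continuousAt.continuousWithinAt)
    (fun t ht => (hderiv t ⟨ht.1, ht.2.le⟩).hasDerivWithinAt) 1 ⟨zero_le_one, le_rfl⟩
  simpa using this.symm

section

variable {r n : ℕ} {d : Fin r → ℕ} {M : Type*} [TopologicalSpace M] [ChartedSpace (Cm n) M]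
  [IsManifold 𝓘(ℂ, Cm n) ω M] {Y : Fin r → Type*} [∀ i, TopologicalSpace (Y i)]
  [∀ i, ChartedSpace (Cm (d i)) (Y i)] [∀ i, IsManifold 𝓘(ℂ, Cm (d i)) ω (Y i)]

variable (d) in
/-- the parallel projections adapted to the product -/
structure QD (Φ : M ≃ₜ ((i : Fin r) → Y i)) (w : FormM n M) (Q : Fin r → FormM n M) : Prop where
  sa : ∀ i (e : Chart n M) m, At e m →
    (Q i e (e m)).transpose * w e (e m) = w e (e m) * (Q i e (e m)).map (starRingEnd ℂ)
  sum : ∀ (e : Chart n M) m, At e m → ∑ i, Q i e (e m) = 1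
  ker : ∀ i j, j ≠ i → ∀ (e : Chart n M) (e' : Chart (d i) (Y i)) m, At e m → At e' (Φ m i) →
    jacF (fun m => Φ m i) e e' m * Q j e (e m) = 0

variable {σ : (Σ i, Fin (d i)) ≃ Fin n} {Φ : M ≃ₜ ((i : Fin r) → Y i)} {w : FormM n M}
  {Q : Fin r → FormM n M} {e : Chart n M} {e' : (i : Fin r) → Chart (d i) (Y i)} {m : M}

theorem QD.self (hQ : QD d Φ w Q) (i : Fin r) (h : At e m) {c : Chart (d i) (Y i)}
    (h' : At c (Φ m i)) :
    jacF (fun m => Φ m i) e c m * Q i e (e m) = jacF (fun m => Φ m i) e c m := by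
  have h1 := hQ.sum e m h
  calc jacF (fun m => Φ m i) e c m * Q i e (e m)
      = ∑ j, jacF (fun m => Φ m i) e c m * Q j e (e m) := by
        rw [Finset.sum_eq_single i]
        · intro j _ hj
          exact hQ.ker i j hj e c m h h'
        · simp
    _ = jacF (fun m => Φ m i) e c m := by
        rw [← Matrix.mul_sum, h1, Matrix.mul_one]

/-- indicator matrix of the `j`-th block -/
def Eb (σ : (Σ i, Fin (d i)) ≃ Fin n) (j : Fin r) : Matrix (Fin n) (Fin n) ℂ :=
  Matrix.diagonal fun k => if (σ.symm k).1 = j then 1 else 0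

theorem toP_Q (hP : PD σ Φ) (hQ : QD d Φ w Q) (h : At e m) (h' : ∀ i, At (e' i) (Φ m i))
    (j : Fin r) : jmR (toP σ Φ e e') (e m) * Q j e (e m) = Eb σ j * jmR (toP σ Φ e e') (e m) := by
  ext k l
  unfold Eb
  rw [Matrix.diagonal_mul, Matrix.mul_apply]
  set i := (σ.symm k).1 with hi
  set a := (σ.symm k).2 with ha
  have h1 : ∀ p, jmR (toP σ Φ e e') (e m) k p = jacF (fun m => Φ m i) e (e' i) m a p :=
    fun p => rfl
  simp only [h1]
  by_cases hij : i = j
  · rw [if_pos hij, one_mul]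
    subst hij
    have := congrFun (congrFun (hQ.self i h (h' i)) a) l
    rwa [Matrix.mul_apply] at this
  · rw [if_neg hij, zero_mul]
    have := congrFun (congrFun (hQ.ker i j (Ne.symm hij) e (e' i) m h (h' i)) a) l
    rwa [Matrix.mul_apply] at this

/-- `T`, the Jacobian of `Φ.symm` in product coordinates, is inverse to the Jacobian of `Φ` -/
theorem jmR_toP_fromP (hP : PD σ Φ) (h : At e m) (h' : ∀ i, At (e' i) (Φ m i)) :
    jmR (toP σ Φ e e') (e m) * jmR (fromP σ Φ e e') (asm σ fun i => e' i (Φ m i)) = 1 := by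
  have h0 : fromP σ Φ e e' (asm σ fun i => e' i (Φ m i)) = e m := by
    rw [← toP_at (σ := σ) (Φ := Φ) h]; exact fromP_toP hP h h'
  have h1 := jmR_comp (σ := toP σ Φ e e') (τ := fromP σ Φ e e')
    (z := asm σ fun i => e' i (Φ m i))
    (by rw [h0]; exact (toP_hol hP h h').differentiableAt (by simp))
    ((fromP_hol hP h h').differentiableAt (by simp))
  rw [h0] at h1
  rw [← h1, jmR_congr (toP_fromP h h'), jmR_eq_jmat]
  exact jmat_id _

theorem jmR_fromP_toP (hP : PD σ Φ) (h : At e m) (h' : ∀ i, At (e' i) (Φ m i)) :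
    jmR (fromP σ Φ e e') (asm σ fun i => e' i (Φ m i)) * jmR (toP σ Φ e e') (e m) = 1 :=
  mul_eq_one_comm.1 (jmR_toP_fromP hP h h')

theorem Q_fromP (hP : PD σ Φ) (hQ : QD d Φ w Q) (h : At e m) (h' : ∀ i, At (e' i) (Φ m i))
    (j : Fin r) : Q j e (e m) * jmR (fromP σ Φ e e') (asm σ fun i => e' i (Φ m i)) =
      jmR (fromP σ Φ e e') (asm σ fun i => e' i (Φ m i)) * Eb σ j := by
  set T := jmR (fromP σ Φ e e') (asm σ fun i => e' i (Φ m i))
  set P := jmR (toP σ Φ e e') (e m)
  have h1 : P * T = 1 := jmR_toP_fromP hP h h'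
  have h2 : T * P = 1 := jmR_fromP_toP hP h h'
  have h3 : P * Q j e (e m) = Eb σ j * P := toP_Q hP hQ h h' j
  calc Q j e (e m) * T = T * (P * Q j e (e m)) * T := by
        rw [← Matrix.mul_assoc, h2, Matrix.one_mul]
    _ = T * Eb σ j * (P * T) := by rw [h3]; simp only [Matrix.mul_assoc]
    _ = T * Eb σ j := by rw [h1, Matrix.mul_one]

/-- the metric in product coordinates -/
def gP (σ : (Σ i, Fin (d i)) ≃ Fin n) (Φ : M ≃ₜ ((i : Fin r) → Y i)) (w : FormM n M)
    (e : Chart n M) (e' : (i : Fin r) → Chart (d i) (Y i)) (ζ : Cm n) :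
    Matrix (Fin n) (Fin n) ℂ :=
  (jmR (fromP σ Φ e e') ζ).transpose * w e (fromP σ Φ e e' ζ) *
    (jmR (fromP σ Φ e e') ζ).map (starRingEnd ℂ)

theorem map_conj_mul {a b c : ℕ} (A : Matrix (Fin a) (Fin b) ℂ) (B : Matrix (Fin b) (Fin c) ℂ) :
    (A * B).map (starRingEnd ℂ) = A.map (starRingEnd ℂ) * B.map (starRingEnd ℂ) := by
  rw [Matrix.map_mul]

theorem Eb_conj (j : Fin r) : (Eb σ j).map (starRingEnd ℂ) = Eb σ j := by
  ext k l
  unfold Eb
  rw [Matrix.map_apply]
  by_cases hkl : k = l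
  · subst hkl
    rw [Matrix.diagonal_apply_eq]
    split_ifs <;> simp
  · rw [Matrix.diagonal_apply_ne _ hkl, map_zero]

theorem Eb_transpose (j : Fin r) : (Eb σ j).transpose = Eb σ j := by
  unfold Eb
  rw [Matrix.diagonal_transpose]

theorem gP_comm (hP : PD σ Φ) (hQ : QD d Φ w Q) (h : At e m) (h' : ∀ i, At (e' i) (Φ m i))
    (j : Fin r) : gP σ Φ w e e' (asm σ fun i => e' i (Φ m i)) * Eb σ j =
      Eb σ j * gP σ Φ w e e' (asm σ fun i => e' i (Φ m i)) := by
  have h0 : fromP σ Φ e e' (asm σ fun i => e' i (Φ m i)) = e m := by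
    rw [← toP_at (σ := σ) (Φ := Φ) h]; exact fromP_toP hP h h'
  unfold gP
  rw [h0]
  have h1 := Q_fromP hP hQ h h' j
  set T := jmR (fromP σ Φ e e') (asm σ fun i => e' i (Φ m i))
  have hsa := hQ.sa j e m h
  have hc : T.map (starRingEnd ℂ) * Eb σ j =
      (Q j e (e m)).map (starRingEnd ℂ) * T.map (starRingEnd ℂ) := by
    rw [← map_conj_mul, h1, map_conj_mul, Eb_conj]
  have ht : T.transpose * (Q j e (e m)).transpose = Eb σ j * T.transpose := by
    rw [← Matrix.transpose_mul, h1, Matrix.transpose_mul, Eb_transpose]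
  calc T.transpose * w e (e m) * T.map (starRingEnd ℂ) * Eb σ j
      = T.transpose * (w e (e m) * (Q j e (e m)).map (starRingEnd ℂ)) *
          T.map (starRingEnd ℂ) := by
        rw [Matrix.mul_assoc _ _ (Eb σ j), hc]; simp only [Matrix.mul_assoc]
    _ = T.transpose * (Q j e (e m)).transpose * w e (e m) * T.map (starRingEnd ℂ) := by
        rw [← hsa]; simp only [Matrix.mul_assoc]
    _ = _ := by rw [ht]; simp only [Matrix.mul_assoc]

/-- different blocks are orthogonal -/
theorem gP_offdiag (hP : PD σ Φ) (hQ : QD d Φ w Q) (h : At e m) (h' : ∀ i, At (e' i) (Φ m i))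
    {k l : Fin n} (hkl : (σ.symm k).1 ≠ (σ.symm l).1) :
    gP σ Φ w e e' (asm σ fun i => e' i (Φ m i)) k l = 0 := by
  have h1 := congrFun (congrFun (gP_comm hP hQ h h' (σ.symm l).1) k) l
  unfold Eb at h1
  rw [Matrix.mul_diagonal, Matrix.diagonal_mul, if_pos rfl, if_neg hkl] at h1
  simpa using h1

end

end Vale.Agent.P299.H996.D1
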