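import Vale.Agent.P299.H996.D1.Slice3

/-!
# The product metric
-/

open scoped Manifold ContDiff ComplexOrder Topology
open Complex Vale.Agent.P272.K Vale.Agent.P299.D Vale.Agent.P299.H956

set_option linter.unusedVariables false
set_option linter.unusedSectionVars false

noncomputable section

namespace Vale.Agent.P299.H996.D1

section

variable {r n : ℕ} {d : Fin r → ℕ} {M : Type*} [TopologicalSpace M] [ChartedSpace (Cm n) M]
  [IsManifold 𝓘(ℂ, Cm n) ω M] {Y : Fin r → Type*} [∀ i, TopologicalSpace (Y i)]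
  [∀ i, ChartedSpace (Cm (d i)) (Y i)] [∀ i, IsManifold 𝓘(ℂ, Cm (d i)) ω (Y i)]
  {σ : (Σ i, Fin (d i)) ≃ Fin n} {Φ : M ≃ₜ ((i : Fin r) → Y i)} {w : FormM n M}
  {Q : Fin r → FormM n M} {e : Chart n M} {e' : (i : Fin r) → Chart (d i) (Y i)} {m : M}

variable (d) in
/-- the metrics of the factors -/
def wS (Φ : M ≃ₜ ((i : Fin r) → Y i)) (w : FormM n M) (y : (i : Fin r) → Y i) (i : Fin r) :
    FormM (d i) (Y i) := pullM (slc Φ i y) w

theorem slc_imm (hP : PD σ Φ) (i : Fin r) (y : (i : Fin r) → Y i) :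
    Immersive (d i) n (slc Φ i y) :=
  immersive_of_leftInverse (slc_hol hP i y) (hP.hol i) fun z => by
    rw [Phi_slc, Function.update_self]

theorem kahler_wS (hw : IsKahler w) (hP : PD σ Φ) (y : (i : Fin r) → Y i) (i : Fin r) :
    IsKahler (wS d Φ w y i) := isKahler_pullM hw (slc_hol hP i y) (slc_imm hP i y)

theorem toP_row (h : At e m) (i : Fin r) :
    (Ic σ i).transpose * jmR (toP σ Φ e e') (e m) = jacF (fun m => Φ m i) e (e' i) m := by
  ext a k
  rw [Ic_mul]
  unfold jmR jacF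
  rw [Matrix.of_apply, Matrix.of_apply]
  congr 1
  funext z
  unfold toP
  rw [asm_apply]

theorem Eb_sum : ∑ i, Eb σ i = 1 := by
  ext k l
  rw [Matrix.sum_apply]
  unfold Eb
  by_cases hkl : k = l
  · subst hkl
    simp
  · simp [Matrix.diagonal_apply_ne _ hkl, Matrix.one_apply_ne hkl]

theorem Eb_sq (i : Fin r) : Eb σ i * Eb σ i = Eb σ i := by
  unfold Eb
  rw [Matrix.diagonal_mul_diagonal]
  congr 1
  funext k
  split_ifs <;> simp

/-- **The metric of `M` is the product metric.** -/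
theorem prod_wS [∀ i, PreconnectedSpace (Y i)] (hw : IsKahler w) (hP : PD σ Φ) (hQ : QD d Φ w Q)
    (y : (i : Fin r) → Y i) (h : At e m) :
    w e (e m) = ∑ i, pullM (fun m => Φ m i) (wS d Φ w y i) e (e m) := by
  set e' : (i : Fin r) → Chart (d i) (Y i) := fun i => chartAt (Cm (d i)) (Φ m i) with he'
  have h' : ∀ i, At (e' i) (Φ m i) := fun i => at_chartAt _
  have h0 : fromP σ Φ e e' (asm σ fun i => e' i (Φ m i)) = e m := by
    rw [← toP_at (σ := σ) (Φ := Φ) h]; exact fromP_toP hP h h'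
  set P := jmR (toP σ Φ e e') (e m) with hPdef
  set T := jmR (fromP σ Φ e e') (asm σ fun i => e' i (Φ m i)) with hT
  set G := gP σ Φ w e e' (asm σ fun i => e' i (Φ m i)) with hG
  have hTP : T * P = 1 := jmR_fromP_toP hP h h'
  have h1 : ∀ i, pullM (fun m => Φ m i) (wS d Φ w y i) e (e m) =
      P.transpose * (Eb σ i * G) * P.map (starRingEnd ℂ) := by
    intro i
    rw [pullM_eq (kahler_wS hw hP y i).isForm (hP.hol i).contMDiffAt h (h' i)]
    have h2 : wS d Φ w y i (e' i) (e' i (Φ m i)) = (Ic σ i).transpose * G * Ic σ i := by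
      unfold wS
      rw [pull_slc_const hw hP hQ i (h' i) y (Φ m), pull_slc hw.isForm hP h h' i]
    rw [h2, ← toP_row (σ := σ) (e' := e') h i, mcj_rect_mul, Matrix.transpose_mul,
      Matrix.transpose_transpose]
    have h3 : (Ic σ i).transpose.map (starRingEnd ℂ) = (Ic σ i).transpose := by
      rw [Matrix.transpose_map, Ic_conj]
    rw [h3]
    have h4 : (Eb σ i * G) = Eb σ i * G * Eb σ i := by
      have := gP_comm hP hQ h h' i
      rw [Matrix.mul_assoc, ← hG] at *
      rw [this, ← Matrix.mul_assoc, Eb_sq]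
    rw [h4, ← Ic_Ic]
    simp only [Matrix.mul_assoc]
    rfl
  rw [Finset.sum_congr rfl fun i _ => h1 i, ← Finset.sum_mul, ← Finset.mul_sum, ← Finset.sum_mul,
    Eb_sum, Matrix.one_mul, hG]
  unfold gP
  rw [h0, ← hT]
  have h5 : P.transpose * T.transpose = 1 := by
    rw [← Matrix.transpose_mul, hTP, Matrix.transpose_one]
  have h6 : T.map (starRingEnd ℂ) * P.map (starRingEnd ℂ) = 1 := by
    rw [← mcj_rect_mul, hTP]
    exact Matrix.map_one _ (map_zero _) (map_one _)
  calc w e (e m) = 1 * w e (e m) * 1 := by rw [Matrix.one_mul, Matrix.mul_one]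
    _ = (P.transpose * T.transpose) * w e (e m) *
          (T.map (starRingEnd ℂ) * P.map (starRingEnd ℂ)) := by rw [h5, h6]
    _ = _ := by simp only [Matrix.mul_assoc]

/-- isometries of `M` which act diagonally act by isometries on the factors -/
theorem rho_iso [∀ i, PreconnectedSpace (Y i)] (hw : IsKahler w) (hP : PD σ Φ) (hQ : QD d Φ w Q)
    {γ : M → M} (hγ : ContMDiff 𝓘(ℂ, Cm n) 𝓘(ℂ, Cm n) ω γ)
    (hiso : ∀ (e : Chart n M) m, At e m → pullM γ w e (e m) = w e (e m))
    {ρ : (i : Fin r) → Y i → Y i}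
    (hρ : ∀ i, ContMDiff 𝓘(ℂ, Cm (d i)) 𝓘(ℂ, Cm (d i)) ω (ρ i))
    (heq : ∀ m i, Φ (γ m) i = ρ i (Φ m i)) (y : (i : Fin r) → Y i) (i : Fin r)
    {c : Chart (d i) (Y i)} {z : Y i} (hc : At c z) :
    pullM (ρ i) (wS d Φ w y i) c (c z) = wS d Φ w y i c (c z) := by
  set y' : (i : Fin r) → Y i := fun j => ρ j (y j) with hy'
  have h1 : ∀ z, slc Φ i y' (ρ i z) = γ (slc Φ i y z) := by
    intro z
    apply Φ.injective
    funext j
    rw [Phi_slc, heq, Phi_slc]
    by_cases hj : j = i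
    · subst hj; simp
    · rw [Function.update_of_ne hj, Function.update_of_ne hj]
  have h2 : ∀ (c : Chart (d i) (Y i)) z, At c z → wS d Φ w y i c (c z) = wS d Φ w y' i c (c z) :=
    fun c z hc => pull_slc_const hw hP hQ i hc y y'
  rw [pullM_congr (f := ρ i) h2 hc]
  unfold wS
  rw [pullM_comp hw.isForm (hρ i) (slc_hol hP i y') hc]
  have h3 : (fun z => slc Φ i y' (ρ i z)) = fun z => γ (slc Φ i y z) := funext h1
  rw [h3, ← pullM_comp hw.isForm (slc_hol hP i y) hγ hc]
  exact pullM_congr (f := slc Φ i y) hiso hc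

/-- `Σ J_iᵀ W_i conj J_i` -/
theorem sum_block (J : (i : Fin r) → Matrix (Fin (d i)) (Fin n) ℂ)
    (W : (i : Fin r) → Matrix (Fin (d i)) (Fin (d i)) ℂ) :
    ∑ i, (J i).transpose * W i * (J i).map (starRingEnd ℂ) =
      ((stack J).submatrix σ.symm id).transpose *
        (stack fun i => W i * (J i).map (starRingEnd ℂ)).submatrix σ.symm id := by
  ext k l
  rw [Matrix.sum_apply, Matrix.mul_apply, ← σ.sum_comp, Fintype.sum_sigma]
  refine Finset.sum_congr rfl fun i _ => ?_
  rw [Matrix.mul_assoc, Matrix.mul_apply]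
  refine Finset.sum_congr rfl fun a _ => ?_
  simp [stack]

theorem det_sum_block (J : (i : Fin r) → Matrix (Fin (d i)) (Fin n) ℂ)
    (W : (i : Fin r) → Matrix (Fin (d i)) (Fin (d i)) ℂ) :
    (∑ i, (J i).transpose * W i * (J i).map (starRingEnd ℂ)).det =
      sdet σ J * (∏ i, (W i).det) * (starRingEnd ℂ) (sdet σ J) := by
  rw [sum_block (σ := σ), Matrix.det_mul, Matrix.det_transpose]
  have h1 : ((stack fun i => W i * (J i).map (starRingEnd ℂ)).submatrix σ.symm id).det =
      sdet σ fun i => W i * (J i).map (starRingEnd ℂ) := rfl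
  have h2 : sdet σ (fun i => (J i).map (starRingEnd ℂ)) = (starRingEnd ℂ) (sdet σ J) := by
    unfold sdet
    rw [RingHom.map_det]
    rfl
  rw [h1, sdet_mul_left, h2]
  unfold sdet
  ring

end

end Vale.Agent.P299.H996.D1
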