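import Vale.Agent.P299.H996.D1.ProdM

/-!
# The Ricci form of a product metric
-/

open scoped Manifold ContDiff ComplexOrder Topology
open Complex Vale.Agent.P272.K Vale.Agent.P299.D Vale.Agent.P299.H956

set_option linter.unusedVariables false
set_option linter.unusedSectionVars false

noncomputable section

namespace Vale.Agent.P299.H996.D1

section

variable {r n : ℕ} {d : Fin r → ℕ} {M : Type*} [TopologicalSpace M] [ChartedSpace (Cm n) M]
  [IsManifold 𝓘(ℂ, Cm n) ω M] {Y : Fin r → Type*} [∀ i, TopologicalSpace (Y i)]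
  [∀ i, ChartedSpace (Cm (d i)) (Y i)] [∀ i, IsManifold 𝓘(ℂ, Cm (d i)) ω (Y i)]
  {σ : (Σ i, Fin (d i)) ≃ Fin n} {Φ : M ≃ₜ ((i : Fin r) → Y i)} {w : FormM n M}
  {wY : (i : Fin r) → FormM (d i) (Y i)}
  {Q : Fin r → FormM n M} {e : Chart n M} {e' : (i : Fin r) → Chart (d i) (Y i)} {m : M}

theorem log_det_prod {J : (i : Fin r) → Matrix (Fin (d i)) (Fin n) ℂ}
    {W : (i : Fin r) → Matrix (Fin (d i)) (Fin (d i)) ℂ} (hW : ∀ i, (W i).PosDef)
    (hJ : sdet σ J ≠ 0) :
    Real.log ((∑ i, (J i).transpose * W i * (J i).map (starRingEnd ℂ)).det).re =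
      ∑ i, Real.log (W i).det.re + Real.log (‖sdet σ J‖ ^ 2) := by
  rw [det_sum_block (σ := σ)]
  have h1 : ∀ i, (W i).det = (((W i).det.re : ℝ) : ℂ) := by
    intro i
    have := Complex.pos_iff.1 (hW i).det_pos
    apply Complex.ext
    · simp
    · simp [← this.2]
  have h2 : ∀ i, 0 < (W i).det.re := fun i => (Complex.pos_iff.1 (hW i).det_pos).1
  have h3 : (sdet σ J * (∏ i, (W i).det) * (starRingEnd ℂ) (sdet σ J)).re =
      (∏ i, (W i).det.re) * ‖sdet σ J‖ ^ 2 := by
    rw [Finset.prod_congr rfl fun i _ => h1 i, ← Complex.ofReal_prod, mul_right_comm,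
      Complex.mul_conj, Complex.normSq_eq_norm_sq, ← Complex.ofReal_mul, Complex.ofReal_re,
      mul_comm]
  rw [h3, Real.log_mul (Finset.prod_pos fun i _ => h2 i).ne'
    (pow_ne_zero 2 (norm_ne_zero_iff.2 hJ)), Real.log_prod fun i _ => (h2 i).ne']

theorem cHess_const (c : ℝ) (z : Cm n) : cHess (fun _ : Cm n => c) z = 0 := by
  ext i j
  rw [cHess_apply]
  have : (dzb j fun y : Cm n => ((c : ℝ) : ℂ)) = fun _ => 0 := by
    funext y; exact dzb_const _
  rw [this, dz_const]; rfl

theorem cHess_sum {ι : Type*} (s : Finset ι) {f : ι → Cm n → ℝ} {z : Cm n}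
    (hf : ∀ a ∈ s, ContDiffAt ℝ 2 (f a) z) :
    cHess (fun y => ∑ a ∈ s, f a y) z = ∑ a ∈ s, cHess (f a) z := by
  classical
  induction s using Finset.induction_on with
  | empty => simpa using cHess_const (n := n) 0 z
  | insert a s ha ih =>
    simp only [Finset.sum_insert ha]
    rw [cHess_add (hf a (Finset.mem_insert_self a s))
      (ContDiffAt.sum fun b hb => hf b (Finset.mem_insert_of_mem hb)),
      ih fun b hb => hf b (Finset.mem_insert_of_mem hb)]

theorem ric_prod (hP : PD σ Φ) (hY : ∀ i, IsHermitian (wY i))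
    (hprod : ∀ (e : Chart n M) m, At e m →
      w e (e m) = ∑ i, pullM (fun m => Φ m i) (wY i) e (e m))
    (h : At e m) (h' : ∀ i, At (e' i) (Φ m i)) :
    ric w e (e m) = ∑ i, (jacF (fun m => Φ m i) e (e' i) m).transpose *
      ric (wY i) (e' i) (e' i (Φ m i)) *
      (jacF (fun m => Φ m i) e (e' i) m).map (starRingEnd ℂ) := by
  set τ : (i : Fin r) → Cm n → Cm (d i) := fun i z => e' i (Φ (e.symm z) i) with hτdef
  have hτ : ∀ i, ContDiffAt ℂ ω (τ i) (e m) := fun i => rep_hol (hP.hol i).contMDiffAt h (h' i)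
  have hτm : ∀ i, τ i (e m) = e' i (Φ m i) := fun i => by
    simp only [hτdef]; rw [h.left_inv]
  have hdet : ∀ z, sdet σ (fun i => jmR (τ i) z) = (jmR (toP σ Φ e e') z).det := fun z => rfl
  have hd0 : (jmR (toP σ Φ e e') (e m)).det ≠ 0 := jmR_toP_det hP h h'
  have hdh := jmR_det_holo (toP_hol hP h h')
  have hne : ∀ᶠ z in 𝓝 (e m), (jmR (toP σ Φ e e') z).det ≠ 0 :=
    hdh.continuousAt.eventually_ne hd0
  have hall : ∀ᶠ z in 𝓝 (e m), ∀ i, pullM (fun m => Φ m i) (wY i) e z =
      (jmR (τ i) z).transpose * wY i (e' i) (τ i z) * (jmR (τ i) z).map (starRingEnd ℂ) := by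
    rw [Filter.eventually_all]
    intro i
    exact pullM_eventually (hY i).isForm (hP.hol i).contMDiffAt h (h' i)
  have hall2 : ∀ᶠ z in 𝓝 (e m), ∀ i, z ∈ e.target ∧ At e (e.symm z) ∧
      At (e' i) (Φ (e.symm z) i) := by
    rw [Filter.eventually_all]
    intro i
    exact nhds_at_map (hP.hol i).contMDiffAt.continuousAt h (h' i)
  have hev : (fun z => Real.log (w e z).det.re) =ᶠ[𝓝 (e m)] fun z =>
      (∑ i, Real.log (wY i (e' i) (τ i z)).det.re) +
        Real.log (‖(jmR (toP σ Φ e e') z).det‖ ^ 2) := by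
    filter_upwards [hne, hall, hall2, h.nhds_target] with z h1 h2 h3 h4
    have h5 := hprod e (e.symm z) (At.of_target h.1 h4)
    rw [e.right_inv h4, Finset.sum_congr rfl fun i _ => h2 i] at h5
    rw [h5, log_det_prod (σ := σ) (J := fun i => jmR (τ i) z)
      (W := fun i => wY i (e' i) (τ i z)) (fun i => (hY i).posDef _ _ (h3 i).2.2)
      (by rw [hdet]; exact h1), hdet]
  have hs : ∀ i, ContDiffAt ℝ 2 (fun z => Real.log (wY i (e' i) z).det.re) (τ i (e m)) := by
    intro i
    rw [hτm]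
    refine ContDiffAt.log ?_ (Complex.pos_iff.1 ((hY i).posDef _ _ (h' i)).det_pos).1.ne'
    exact Complex.reCLM.contDiff.contDiffAt.comp _
      (contDiffAt_det fun k j => ((hY i).smooth _ _ (h' i) k j).of_le (by norm_cast))
  have hs1 : ∀ i ∈ Finset.univ, ContDiffAt ℝ 2
      (fun z => Real.log (wY i (e' i) (τ i z)).det.re) (e m) := fun i _ =>
    ContDiffAt.comp (e m) (g := fun z => Real.log (wY i (e' i) z).det.re) (f := τ i) (hs i)
      (((hτ i).restrict_scalars ℝ).of_le (by exact le_top))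
  have hs2 : ContDiffAt ℝ 2 (fun z => Real.log (‖(jmR (toP σ Φ e e') z).det‖ ^ 2)) (e m) := by
    have hd : ContDiffAt ℝ 2 (fun z => (jmR (toP σ Φ e e') z).det) (e m) :=
      (hdh.restrict_scalars ℝ).of_le (by exact le_top)
    exact (hd.norm_sq ℝ).log (pow_ne_zero 2 (norm_ne_zero_iff.2 hd0))
  unfold ric
  rw [cHess_congr hev, cHess_add (ContDiffAt.sum hs1) hs2, cHess_log_norm_sq hdh hd0, add_zero,
    cHess_sum _ hs1, ← Finset.sum_neg_distrib]
  refine Finset.sum_congr rfl fun i _ => ?_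
  rw [cHess_compR (τ := τ i) (f := fun z => Real.log (wY i (e' i) z).det.re) (hs i) (hτ i), hτm,
    jacF_eq]
  simp only [Matrix.mul_neg, Matrix.neg_mul]
  rfl

/-- the Jacobian matrices of projections and slices -/
theorem jac_jac_slc (hP : PD σ Φ) (h : At e m) (h' : ∀ i, At (e' i) (Φ m i)) (i j : Fin r) :
    jacF (fun m => Φ m j) e (e' j) m * jacF (slc Φ i (Φ m)) (e' i) e (Φ m i) =
      (Ic σ j).transpose * Ic σ i := by
  rw [← toP_row (σ := σ) (e' := e') h j, Matrix.mul_assoc, toP_slc hP h h' i]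

theorem Ic_self (i : Fin r) : (Ic σ i).transpose * Ic σ i = 1 := by
  ext a b
  rw [Ic_mul]
  unfold Ic
  rw [Matrix.of_apply, Matrix.one_apply]
  simp only [EmbeddingLike.apply_eq_iff_eq]
  by_cases hab : a = b
  · subst hab; simp
  · rw [if_neg, if_neg hab]
    intro h
    apply hab
    simpa using h

theorem Ic_ne {i j : Fin r} (hij : j ≠ i) : (Ic σ j).transpose * Ic σ i = 0 := by
  ext a b
  rw [Ic_mul]
  unfold Ic
  rw [Matrix.of_apply, if_neg]
  · rfl
  intro h
  exact hij (congrArg Sigma.fst (σ.injective h))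

theorem jac_self_slc (hP : PD σ Φ) (h : At e m) (h' : ∀ i, At (e' i) (Φ m i)) (i : Fin r) :
    jacF (fun m => Φ m i) e (e' i) m * jacF (slc Φ i (Φ m)) (e' i) e (Φ m i) = 1 := by
  rw [jac_jac_slc hP h h' i i, Ic_self]

theorem jac_ne_slc (hP : PD σ Φ) (h : At e m) (h' : ∀ i, At (e' i) (Φ m i)) {i j : Fin r}
    (hij : j ≠ i) :
    jacF (fun m => Φ m j) e (e' j) m * jacF (slc Φ i (Φ m)) (e' i) e (Φ m i) = 0 := by
  rw [jac_jac_slc hP h h' i j, Ic_ne hij]

/-- `dσ_i ∘ dΦ_i = Q_i` -/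
theorem slc_jac (hP : PD σ Φ) (hQ : QD d Φ w Q) (h : At e m) (h' : ∀ i, At (e' i) (Φ m i))
    (i : Fin r) :
    jacF (slc Φ i (Φ m)) (e' i) e (Φ m i) * jacF (fun m => Φ m i) e (e' i) m = Q i e (e m) := by
  rw [jac_slc hP h h' i, ← toP_row (σ := σ) (e' := e') h i]
  have h1 := Q_fromP hP hQ h h' i
  have h2 := jmR_fromP_toP hP h h'
  set T := jmR (fromP σ Φ e e') (asm σ fun i => e' i (Φ m i))
  set P := jmR (toP σ Φ e e') (e m)
  calc T * Ic σ i * ((Ic σ i).transpose * P) = T * (Ic σ i * (Ic σ i).transpose) * P := by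
        simp only [Matrix.mul_assoc]
    _ = Q i e (e m) * (T * P) := by rw [Ic_Ic, ← h1]; simp only [Matrix.mul_assoc]
    _ = Q i e (e m) := by rw [h2, Matrix.mul_one]

theorem Q_slc (hP : PD σ Φ) (hQ : QD d Φ w Q) (h : At e m) (h' : ∀ i, At (e' i) (Φ m i))
    (i : Fin r) :
    Q i e (e m) * jacF (slc Φ i (Φ m)) (e' i) e (Φ m i) =
      jacF (slc Φ i (Φ m)) (e' i) e (Φ m i) := by
  rw [← slc_jac hP hQ h h' i, Matrix.mul_assoc, jac_self_slc hP h h' i, Matrix.mul_one]

/-- the Ricci form of a factor, read on a slice -/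
theorem ric_slc (hP : PD σ Φ) (hY : ∀ i, IsHermitian (wY i))
    (hprod : ∀ (e : Chart n M) m, At e m →
      w e (e m) = ∑ i, pullM (fun m => Φ m i) (wY i) e (e m))
    (h : At e m) (h' : ∀ i, At (e' i) (Φ m i)) (i : Fin r) :
    ric (wY i) (e' i) (e' i (Φ m i)) =
      (jacF (slc Φ i (Φ m)) (e' i) e (Φ m i)).transpose * ric w e (e m) *
        (jacF (slc Φ i (Φ m)) (e' i) e (Φ m i)).map (starRingEnd ℂ) := by
  rw [ric_prod hP hY hprod h h', Matrix.mul_sum, Matrix.sum_mul, Finset.sum_eq_single i]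
  · have h1 := jac_self_slc hP h h' i
    set S := jacF (slc Φ i (Φ m)) (e' i) e (Φ m i)
    set J := jacF (fun m => Φ m i) e (e' i) m
    have h2 : S.transpose * J.transpose = 1 := by
      rw [← Matrix.transpose_mul, h1, Matrix.transpose_one]
    have h3 : J.map (starRingEnd ℂ) * S.map (starRingEnd ℂ) = 1 := by
      rw [← mcj_rect_mul, h1]
      exact Matrix.map_one _ (map_zero _) (map_one _)
    calc ric (wY i) (e' i) (e' i (Φ m i)) = 1 * ric (wY i) (e' i) (e' i (Φ m i)) * 1 := by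
          rw [Matrix.one_mul, Matrix.mul_one]
      _ = (S.transpose * J.transpose) * ric (wY i) (e' i) (e' i (Φ m i)) *
            (J.map (starRingEnd ℂ) * S.map (starRingEnd ℂ)) := by rw [h2, h3]
      _ = _ := by simp only [Matrix.mul_assoc]
  · intro j _ hj
    have h1 := jac_ne_slc hP h h' hj
    have h2 : (jacF (slc Φ i (Φ m)) (e' i) e (Φ m i)).transpose *
        (jacF (fun m => Φ m j) e (e' j) m).transpose = 0 := by
      rw [← Matrix.transpose_mul, h1, Matrix.transpose_zero]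
    rw [← Matrix.mul_assoc, ← Matrix.mul_assoc, h2]
    simp
  · simp

/-- `Ric ≥ 0` on the factors -/
theorem ricNonneg_factor [Nonempty M] (hP : PD σ Φ) (hY : ∀ i, IsHermitian (wY i))
    (hprod : ∀ (e : Chart n M) m, At e m →
      w e (e m) = ∑ i, pullM (fun m => Φ m i) (wY i) e (e m))
    (hric : RicNonneg w) (i : Fin r) : RicNonneg (wY i) := by
  intro c z hc
  obtain ⟨m1⟩ := ‹Nonempty M›
  set m : M := Φ.symm (Function.update (Φ m1) i z) with hm
  have hΦ : Φ m = Function.update (Φ m1) i z := by rw [hm, Φ.apply_symm_apply]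
  set e' : (j : Fin r) → Chart (d j) (Y j) :=
    Function.update (fun j => (chartAt (Cm (d j)) (Φ m j) : Chart (d j) (Y j))) i c with he'
  have hei : e' i = c := Function.update_self _ _ _
  have h' : ∀ j, At (e' j) (Φ m j) := by
    intro j
    by_cases hj : j = i
    · subst hj
      rw [hei, hΦ, Function.update_self]
      exact hc
    · rw [he', Function.update_of_ne hj]
      exact at_chartAt _
  have he : At (chartAt (Cm n) m) m := at_chartAt m
  have h1 := ric_slc (σ := σ) hP hY hprod he h' i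
  rw [hei, hΦ, Function.update_self] at h1
  rw [h1]
  set S := jacF (slc Φ i (Function.update (Φ m1) i z)) c (chartAt (Cm n) m) z
  have h2 : S.transpose = (S.map (starRingEnd ℂ)).conjTranspose := by
    ext i j
    simp [Matrix.conjTranspose_apply]
  rw [h2]
  exact (hric _ _ he).conjTranspose_mul_mul_same _

/-- the factors killed by `Ric` are Ricci flat -/
theorem ricZero_factor [Nonempty M] (hP : PD σ Φ) (hQ : QD d Φ w Q)
    (hY : ∀ i, IsHermitian (wY i))
    (hprod : ∀ (e : Chart n M) m, At e m →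
      w e (e m) = ∑ i, pullM (fun m => Φ m i) (wY i) e (e m))
    (i : Fin r) (hric : RicKills w (Q i)) : RicZero (wY i) := by
  intro c z hc
  obtain ⟨m1⟩ := ‹Nonempty M›
  set m : M := Φ.symm (Function.update (Φ m1) i z) with hm
  have hΦ : Φ m = Function.update (Φ m1) i z := by rw [hm, Φ.apply_symm_apply]
  set e' : (j : Fin r) → Chart (d j) (Y j) :=
    Function.update (fun j => (chartAt (Cm (d j)) (Φ m j) : Chart (d j) (Y j))) i c with he'
  have hei : e' i = c := Function.update_self _ _ _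
  have h' : ∀ j, At (e' j) (Φ m j) := by
    intro j
    by_cases hj : j = i
    · subst hj
      rw [hei, hΦ, Function.update_self]
      exact hc
    · rw [he', Function.update_of_ne hj]
      exact at_chartAt _
  have he : At (chartAt (Cm n) m) m := at_chartAt m
  have h1 := ric_slc (σ := σ) hP hY hprod he h' i
  have h2 : (jacF (slc Φ i (Φ m)) (e' i) (chartAt (Cm n) m) (Φ m i)).transpose *
      ric w (chartAt (Cm n) m) (chartAt (Cm n) m m) = 0 := by
    rw [← Q_slc hP hQ he h' i, Matrix.transpose_mul, Matrix.mul_assoc, hric _ _ he,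
      Matrix.mul_zero]
  rw [h2, Matrix.zero_mul, hei, hΦ, Function.update_self] at h1
  exact h1

end

end Vale.Agent.P299.H996.D1
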