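import Vale.Agent.P299.H996.D1.Met

/-!
# The slice metrics do not depend on the slice
-/

open scoped Manifold ContDiff ComplexOrder Topology
open Complex Vale.Agent.P272.K Vale.Agent.P299.D Vale.Agent.P299.H956

set_option linter.unusedVariables false
set_option linter.unusedSectionVars false

noncomputable section

namespace Vale.Agent.P299.H996.D1

section

variable {r n : ℕ} {d : Fin r → ℕ} {M : Type*} [TopologicalSpace M] [ChartedSpace (Cm n) M]
  [IsManifold 𝓘(ℂ, Cm n) ω M] {Y : Fin r → Type*} [∀ i, TopologicalSpace (Y i)]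
  [∀ i, ChartedSpace (Cm (d i)) (Y i)] [∀ i, IsManifold 𝓘(ℂ, Cm (d i)) ω (Y i)]
  {σ : (Σ i, Fin (d i)) ≃ Fin n} {Φ : M ≃ₜ ((i : Fin r) → Y i)} {w : FormM n M}
  {Q : Fin r → FormM n M} {e : Chart n M} {e' : (i : Fin r) → Chart (d i) (Y i)} {m : M}

/-- everything that holds at the base point holds nearby -/
theorem eventually_base (h : At e m) (h' : ∀ i, At (e' i) (Φ m i))
    {p : Cm n → Prop} (hp : ∀ m', At e m' → (∀ i, At (e' i) (Φ m' i)) →
      p (asm σ fun i => e' i (Φ m' i))) : ∀ᶠ ζ in 𝓝 (asm σ fun i => e' i (Φ m i)), p ζ := by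
  filter_upwards [eventually_ptP (σ := σ) h h'] with ζ hζ
  have h1 := hp _ hζ.1 hζ.2.1
  have h2 : (asm σ fun i => e' i (Φ (ptP σ Φ e' ζ) i)) = ζ := by
    refine ext_blk σ fun i => ?_
    rw [blk_asm, hζ.2.2]
  rwa [h2] at h1

theorem gP_herm (hw : IsHermitian w) (hP : PD σ Φ) (h : At e m)
    (h' : ∀ i, At (e' i) (Φ m i)) (k l : Fin n) :
    gP σ Φ w e e' (asm σ fun i => e' i (Φ m i)) k l =
      (starRingEnd ℂ) (gP σ Φ w e e' (asm σ fun i => e' i (Φ m i)) l k) := by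
  have h0 : fromP σ Φ e e' (asm σ fun i => e' i (Φ m i)) = e m := by
    rw [← toP_at (σ := σ) (Φ := Φ) h]; exact fromP_toP hP h h'
  have h1 := (hw.posDef e m h).1
  unfold gP
  rw [h0]
  set T := jmR (fromP σ Φ e e') (asm σ fun i => e' i (Φ m i))
  have h2 : (T.transpose * w e (e m) * T.map (starRingEnd ℂ)).conjTranspose =
      T.transpose * w e (e m) * T.map (starRingEnd ℂ) := by
    rw [Matrix.conjTranspose_mul, Matrix.conjTranspose_mul, h1.eq]
    have e1 : (T.map (starRingEnd ℂ)).conjTranspose = T.transpose := by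
      ext i j; simp [Matrix.conjTranspose_apply]
    have e2 : T.transpose.conjTranspose = T.map (starRingEnd ℂ) := by
      ext i j; simp [Matrix.conjTranspose_apply]
    rw [e1, e2, Matrix.mul_assoc]
  have h3 := congrFun (congrFun h2 k) l
  rw [Matrix.conjTranspose_apply] at h3
  exact h3.symm

theorem gP_diff (hw : IsHermitian w) (hP : PD σ Φ) (h : At e m)
    (h' : ∀ i, At (e' i) (Φ m i)) (k l : Fin n) :
    DifferentiableAt ℝ (fun ζ => gP σ Φ w e e' ζ k l) (asm σ fun i => e' i (Φ m i)) := by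
  have h0 : fromP σ Φ e e' (asm σ fun i => e' i (Φ m i)) = e m := by
    rw [← toP_at (σ := σ) (Φ := Φ) h]; exact fromP_toP hP h h'
  have hτ := fromP_hol hP h h'
  have hJ : ∀ p i, DifferentiableAt ℝ (fun ζ => jmR (fromP σ Φ e e') ζ p i)
      (asm σ fun i => e' i (Φ m i)) := fun p i =>
    ((jmR_holo hτ p i).differentiableAt (by simp)).restrictScalars ℝ
  have hJc : ∀ p i, DifferentiableAt ℝ
      (fun ζ => (starRingEnd ℂ) (jmR (fromP σ Φ e e') ζ p i))
      (asm σ fun i => e' i (Φ m i)) := fun p i =>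
    Complex.conjCLE.differentiableAt.comp _ (hJ p i)
  have hwc : ∀ p q, DifferentiableAt ℝ (fun ζ => w e (fromP σ Φ e e' ζ) p q)
      (asm σ fun i => e' i (Φ m i)) := by
    intro p q
    refine DifferentiableAt.comp (g := fun z => w e z p q) _ ?_
      ((hτ.differentiableAt (by simp)).restrictScalars ℝ)
    rw [h0]
    exact (hw.smooth e m h p q).differentiableAt (by simp)
  unfold gP
  simp only [Matrix.mul_apply, Matrix.transpose_apply, Matrix.map_apply]
  exact DifferentiableAt.fun_sum fun q _ =>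
    (DifferentiableAt.fun_sum fun p _ => (hJ p k).mul (hwc p q)).mul (hJc q l)

theorem dz_gP (hw : IsKahler w) (hP : PD σ Φ) (h : At e m) (h' : ∀ i, At (e' i) (Φ m i))
    (i j k : Fin n) :
    dz k (fun ζ => gP σ Φ w e e' ζ i j) (asm σ fun i => e' i (Φ m i)) =
      dz i (fun ζ => gP σ Φ w e e' ζ k j) (asm σ fun i => e' i (Φ m i)) := by
  have h0 : fromP σ Φ e e' (asm σ fun i => e' i (Φ m i)) = e m := by
    rw [← toP_at (σ := σ) (Φ := Φ) h]; exact fromP_toP hP h h'
  refine closed_comp (τ := fromP σ Φ e e') (b := fun z => w e z) (fromP_hol hP h h') ?_ ?_ i j k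
  · intro i j
    rw [h0]
    exact (hw.smooth e m h i j).differentiableAt (by simp)
  · intro i j k
    rw [h0]
    exact hw.closed e m h i j k

/-- the entries in the block `i` do not depend on the other blocks: derivatives -/
theorem fderiv_gP (hw : IsKahler w) (hP : PD σ Φ) (hQ : QD d Φ w Q) (h : At e m)
    (h' : ∀ i, At (e' i) (Φ m i)) {i j k : Fin n} (hij : (σ.symm i).1 = (σ.symm j).1)
    (hk : (σ.symm k).1 ≠ (σ.symm i).1) (c : ℂ) :
    fderiv ℝ (fun ζ => gP σ Φ w e e' ζ i j) (asm σ fun i => e' i (Φ m i)) (Pi.single k c) = 0 := by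
  have hz : ∀ {i j : Fin n}, (σ.symm i).1 = (σ.symm j).1 → (σ.symm k).1 ≠ (σ.symm i).1 →
      dz k (fun ζ => gP σ Φ w e e' ζ i j) (asm σ fun i => e' i (Φ m i)) = 0 := by
    intro i j hij hk
    rw [dz_gP hw hP h h' i j k]
    have h1 : (fun ζ => gP σ Φ w e e' ζ k j) =ᶠ[𝓝 (asm σ fun i => e' i (Φ m i))]
        fun _ => (0 : ℂ) := by
      refine eventually_base h h' (p := fun ζ => gP σ Φ w e e' ζ k j = 0) fun m' hm hm' => ?_
      exact gP_offdiag hP hQ hm hm' (by rw [← hij]; exact hk)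
    rw [dz_congr h1]
    unfold dz
    simp
  refine fderiv_zero_of_dz (hz hij hk) ?_ c
  have h2 : (fun ζ => gP σ Φ w e e' ζ i j) =ᶠ[𝓝 (asm σ fun i => e' i (Φ m i))]
      fun ζ => (starRingEnd ℂ) (gP σ Φ w e e' ζ j i) := by
    refine eventually_base h h'
      (p := fun ζ => gP σ Φ w e e' ζ i j = (starRingEnd ℂ) (gP σ Φ w e e' ζ j i))
      fun m' hm hm' => ?_
    exact gP_herm hw.toIsHermitian hP hm hm' i j
  rw [dzb_congr h2]
  have h3 := dzb_cj (i := k) (gP_diff hw.toIsHermitian hP h h' j i)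
  rw [hz hij.symm (by rw [← hij]; exact hk)] at h3
  exact h3.trans (map_zero _)

/-- the entries in the block `i` do not depend on the other blocks, locally -/
theorem gP_loc (hw : IsKahler w) (hP : PD σ Φ) (hQ : QD d Φ w Q) (h : At e m)
    (h' : ∀ i, At (e' i) (Φ m i)) (i : Fin r) (a b : Fin (d i)) :
    ∀ᶠ ζ in 𝓝 (asm σ fun i => e' i (Φ m i)),
      blk σ i ζ = blk σ i (asm σ fun i => e' i (Φ m i)) →
      gP σ Φ w e e' ζ (σ ⟨i, a⟩) (σ ⟨i, b⟩) =
        gP σ Φ w e e' (asm σ fun i => e' i (Φ m i)) (σ ⟨i, a⟩) (σ ⟨i, b⟩) := by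
  have h1 : ∀ᶠ ζ in 𝓝 (asm σ fun i => e' i (Φ m i)),
      DifferentiableAt ℝ (fun ζ => gP σ Φ w e e' ζ (σ ⟨i, a⟩) (σ ⟨i, b⟩)) ζ ∧
      ∀ v : Cm n, blk σ i v = 0 →
        fderiv ℝ (fun ζ => gP σ Φ w e e' ζ (σ ⟨i, a⟩) (σ ⟨i, b⟩)) ζ v = 0 := by
    refine eventually_base h h' (p := fun ζ =>
      DifferentiableAt ℝ (fun ζ => gP σ Φ w e e' ζ (σ ⟨i, a⟩) (σ ⟨i, b⟩)) ζ ∧
      ∀ v : Cm n, blk σ i v = 0 →
        fderiv ℝ (fun ζ => gP σ Φ w e e' ζ (σ ⟨i, a⟩) (σ ⟨i, b⟩)) ζ v = 0) fun m' hm hm' => ?_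
    refine ⟨gP_diff hw.toIsHermitian hP hm hm' _ _, fun v hv => ?_⟩
    have hsum : v = ∑ k, (Pi.single k (v k) : Cm n) := by
      ext j
      simp [Finset.sum_apply, Pi.single_apply]
    rw [hsum, map_sum]
    refine Finset.sum_eq_zero fun k _ => ?_
    by_cases hk : (σ.symm k).1 = i
    · have h2 : v k = 0 := by
        have h3 : k = σ ⟨i, hk ▸ (σ.symm k).2⟩ := by
          subst hk
          simp
        rw [h3]
        exact congrFun hv _
      rw [h2]; simp
    · refine fderiv_gP hw hP hQ hm hm' ?_ ?_ _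
      · simp
      · simpa using hk
  obtain ⟨ε, hε, hball⟩ := Metric.eventually_nhds_iff_ball.1 h1
  filter_upwards [Metric.ball_mem_nhds _ hε] with ζ hζ hb
  refine const_on_segment (Metric.ball _ ε) (convex_ball _ _) hζ (Metric.mem_ball_self hε)
    (fun z hz => (hball z hz).1) fun z hz => (hball z hz).2 _ ?_
  rw [map_sub, hb, sub_self]

end

end Vale.Agent.P299.H996.D1
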