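import Vale.Agent.P299.H996.D1.Slice

/-!
# The metrics of the slices
-/

open scoped Manifold ContDiff ComplexOrder Topology
open Complex Vale.Agent.P272.K Vale.Agent.P299.D Vale.Agent.P299.H956

set_option linter.unusedVariables false
set_option linter.unusedSectionVars false

noncomputable section

namespace Vale.Agent.P299.H996.D1

section

variable {r n : ℕ} {d : Fin r → ℕ} {M : Type*} [TopologicalSpace M] [ChartedSpace (Cm n) M]
  [IsManifold 𝓘(ℂ, Cm n) ω M] {Y : Fin r → Type*} [∀ i, TopologicalSpace (Y i)]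
  [∀ i, ChartedSpace (Cm (d i)) (Y i)] [∀ i, IsManifold 𝓘(ℂ, Cm (d i)) ω (Y i)]
  {σ : (Σ i, Fin (d i)) ≃ Fin n} {Φ : M ≃ₜ ((i : Fin r) → Y i)} {w : FormM n M}
  {Q : Fin r → FormM n M} {e : Chart n M} {e' : (i : Fin r) → Chart (d i) (Y i)} {m : M}

/-- the slices -/
def slc (Φ : M ≃ₜ ((i : Fin r) → Y i)) (i : Fin r) (y : (i : Fin r) → Y i) : Y i → M :=
  fun z => Φ.symm (Function.update y i z)

theorem slc_self (i : Fin r) (m : M) : slc Φ i (Φ m) (Φ m i) = m := by
  unfold slc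
  rw [Function.update_eq_self, Φ.symm_apply_apply]

theorem Phi_slc (i j : Fin r) (y : (i : Fin r) → Y i) (z : Y i) :
    Φ (slc Φ i y z) j = Function.update y i z j := by
  unfold slc
  rw [Φ.apply_symm_apply]

theorem slc_update (i : Fin r) (y : (i : Fin r) → Y i) (z : Y i) :
    slc Φ i (Function.update y i z) = slc Φ i y := by
  funext t
  unfold slc
  rw [Function.update_idem]

theorem slc_hol (hP : PD σ Φ) (i : Fin r) (y : (i : Fin r) → Y i) :
    ContMDiff 𝓘(ℂ, Cm (d i)) 𝓘(ℂ, Cm n) ω (slc Φ i y) := hP.slice i y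

/-- the inclusion of the `i`-th block -/
def Ic (σ : (Σ i, Fin (d i)) ≃ Fin n) (i : Fin r) : Matrix (Fin n) (Fin (d i)) ℂ :=
  Matrix.of fun k b => if k = σ ⟨i, b⟩ then 1 else 0

theorem Ic_conj (i : Fin r) : (Ic σ i).map (starRingEnd ℂ) = Ic σ i := by
  ext k b
  unfold Ic
  rw [Matrix.map_apply, Matrix.of_apply]
  split_ifs <;> simp

theorem Ic_Ic (i : Fin r) : Ic σ i * (Ic σ i).transpose = Eb σ i := by
  ext k l
  obtain ⟨⟨j, c⟩, rfl⟩ := σ.surjective k
  unfold Ic Eb
  rw [Matrix.mul_apply]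
  simp only [Matrix.transpose_apply, Matrix.of_apply, EmbeddingLike.apply_eq_iff_eq]
  by_cases hkl : σ ⟨j, c⟩ = l
  · subst hkl
    rw [Matrix.diagonal_apply_eq, σ.symm_apply_apply]
    simp only [EmbeddingLike.apply_eq_iff_eq]
    by_cases hk : j = i
    · subst hk
      rw [if_pos rfl, Finset.sum_eq_single c]
      · simp
      · intro b _ hb
        have : ¬ ((⟨j, c⟩ : Σ i, Fin (d i)) = ⟨j, b⟩) := by
          intro h
          apply hb
          simpa using h.symm
        simp [this]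
      · simp
    · rw [if_neg hk]
      refine Finset.sum_eq_zero fun b _ => ?_
      have : ¬ ((⟨j, c⟩ : Σ i, Fin (d i)) = ⟨i, b⟩) := by
        intro h
        exact hk (congrArg Sigma.fst h)
      simp [this]
  · rw [Matrix.diagonal_apply_ne _ hkl]
    refine Finset.sum_eq_zero fun b _ => ?_
    by_cases h1 : (⟨j, c⟩ : Σ i, Fin (d i)) = ⟨i, b⟩
    · have h2 : l ≠ σ ⟨i, b⟩ := fun h => hkl (by rw [h1, h])
      simp [h2]
    · simp [h1]

theorem mul_Ic {p : ℕ} (A : Matrix (Fin p) (Fin n) ℂ) (i : Fin r) (k : Fin p) (b : Fin (d i)) :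
    (A * Ic σ i) k b = A k (σ ⟨i, b⟩) := by
  unfold Ic
  rw [Matrix.mul_apply]
  simp

theorem Ic_mul {p : ℕ} (A : Matrix (Fin n) (Fin p) ℂ) (i : Fin r) (k : Fin p) (b : Fin (d i)) :
    ((Ic σ i).transpose * A) b k = A (σ ⟨i, b⟩) k := by
  unfold Ic
  rw [Matrix.mul_apply]
  simp

/-- the Jacobian matrix of the slice -/
theorem toP_slc (hP : PD σ Φ) (h : At e m) (h' : ∀ i, At (e' i) (Φ m i)) (i : Fin r) :
    jmR (toP σ Φ e e') (e m) * jacF (slc Φ i (Φ m)) (e' i) e (Φ m i) = Ic σ i := by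
  ext k b
  obtain ⟨⟨j, a⟩, rfl⟩ := σ.surjective k
  have h1 : ∀ p, jmR (toP σ Φ e e') (e m) (σ ⟨j, a⟩) p =
      jacF (fun m => Φ m j) e (e' j) m a p := by
    intro p
    unfold jmR jacF
    rw [Matrix.of_apply, Matrix.of_apply]
    congr 1
    funext z
    unfold toP
    rw [asm_apply]
  have h2 : (jmR (toP σ Φ e e') (e m) * jacF (slc Φ i (Φ m)) (e' i) e (Φ m i)) (σ ⟨j, a⟩) b =
      (jacF (fun m => Φ m j) e (e' j) m * jacF (slc Φ i (Φ m)) (e' i) e (Φ m i)) a b := by
    rw [Matrix.mul_apply, Matrix.mul_apply]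
    simp only [h1]
  have hs : slc Φ i (Φ m) (Φ m i) = m := slc_self i m
  have hc := jacF_comp (f := slc Φ i (Φ m)) (g := fun m => Φ m j) (y := Φ m i) (e := e' i)
    (e' := e) (e'' := e' j) (slc_hol hP i (Φ m)).contMDiffAt (hP.hol j).contMDiffAt (h' i)
    (by rw [hs]; exact h) (by rw [hs]; exact h' j)
  rw [hs] at hc
  rw [h2, ← hc]
  have h3 : (fun z => Φ (slc Φ i (Φ m) z) j) = fun z => Function.update (Φ m) i z j := by
    funext z; exact Phi_slc i j _ z
  rw [h3]
  unfold Ic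
  rw [Matrix.of_apply]
  simp only [EmbeddingLike.apply_eq_iff_eq]
  by_cases hij : j = i
  · subst hij
    have h4 : (fun z => Function.update (Φ m) j z j) = fun z => z := by
      funext z; simp
    rw [h4, jacF_id, jacM_self (h' j), Matrix.one_apply]
    by_cases hab : a = b
    · rw [if_pos hab, if_pos (by rw [hab])]
    · rw [if_neg hab, if_neg]
      intro h6
      apply hab
      simpa using h6
  · have h4 : (fun z => Function.update (Φ m) i z j) = fun z => Φ m j := by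
      funext z; simp [Function.update_of_ne hij]
    rw [h4, if_neg (fun h6 => hij (congrArg Sigma.fst h6))]
    unfold jacF
    rw [Matrix.of_apply]
    unfold dz
    simp

theorem jac_slc (hP : PD σ Φ) (h : At e m) (h' : ∀ i, At (e' i) (Φ m i)) (i : Fin r) :
    jacF (slc Φ i (Φ m)) (e' i) e (Φ m i) =
      jmR (fromP σ Φ e e') (asm σ fun i => e' i (Φ m i)) * Ic σ i := by
  rw [← toP_slc hP h h' i, ← Matrix.mul_assoc, jmR_fromP_toP hP h h', Matrix.one_mul]

/-- the metric of a slice is a block of the metric in product coordinates -/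
theorem pull_slc (hw : IsForm w) (hP : PD σ Φ) (h : At e m) (h' : ∀ i, At (e' i) (Φ m i))
    (i : Fin r) : pullM (slc Φ i (Φ m)) w (e' i) (e' i (Φ m i)) =
      (Ic σ i).transpose * gP σ Φ w e e' (asm σ fun i => e' i (Φ m i)) * Ic σ i := by
  have hs : slc Φ i (Φ m) (Φ m i) = m := slc_self i m
  have h0 : fromP σ Φ e e' (asm σ fun i => e' i (Φ m i)) = e m := by
    rw [← toP_at (σ := σ) (Φ := Φ) h]; exact fromP_toP hP h h'
  rw [pullM_eq (e' := e) hw (slc_hol hP i (Φ m)).contMDiffAt (h' i) (by rw [hs]; exact h), hs,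
    jac_slc hP h h' i]
  unfold gP
  rw [h0, mcj_rect_mul, Matrix.transpose_mul, Ic_conj]
  simp only [Matrix.mul_assoc]

theorem pull_slc_apply (hw : IsForm w) (hP : PD σ Φ) (h : At e m) (h' : ∀ i, At (e' i) (Φ m i))
    (i : Fin r) (a b : Fin (d i)) : pullM (slc Φ i (Φ m)) w (e' i) (e' i (Φ m i)) a b =
      gP σ Φ w e e' (asm σ fun i => e' i (Φ m i)) (σ ⟨i, a⟩) (σ ⟨i, b⟩) := by
  rw [pull_slc hw hP h h' i, mul_Ic, Ic_mul]

end

end Vale.Agent.P299.H996.D1
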