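import Vale.Agent.P299.H996.D1.Slice2
import Mathlib.Topology.Connected.Basic
import Mathlib.Topology.LocallyConstant.Basic

/-!
# The metrics of the slices do not depend on the slice; the product metric
-/

open scoped Manifold ContDiff ComplexOrder Topology
open Complex Vale.Agent.P272.K Vale.Agent.P299.D Vale.Agent.P299.H956

set_option linter.unusedVariables false
set_option linter.unusedSectionVars false

noncomputable section

namespace Vale.Agent.P299.H996.D1

section

variable {r n : ℕ} {d : Fin r → ℕ} {M : Type*} [TopologicalSpace M] [ChartedSpace (Cm n) M]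
  [IsManifold 𝓘(ℂ, Cm n) ω M] {Y : Fin r → Type*} [∀ i, TopologicalSpace (Y i)]
  [∀ i, ChartedSpace (Cm (d i)) (Y i)] [∀ i, IsManifold 𝓘(ℂ, Cm (d i)) ω (Y i)]
  {σ : (Σ i, Fin (d i)) ≃ Fin n} {Φ : M ≃ₜ ((i : Fin r) → Y i)} {w : FormM n M}
  {Q : Fin r → FormM n M} {e : Chart n M} {e' : (i : Fin r) → Chart (d i) (Y i)} {m : M}

theorem eventually_asm (h : At e m) (h' : ∀ i, At (e' i) (Φ m i)) {p : Cm n → Prop}
    (hp : ∀ᶠ ζ in 𝓝 (asm σ fun i => e' i (Φ m i)), p ζ) :
    ∀ᶠ m' in 𝓝 m, At e m' ∧ (∀ i, At (e' i) (Φ m' i)) ∧ p (asm σ fun i => e' i (Φ m' i)) := by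
  have h1 : ∀ᶠ m' in 𝓝 m, m' ∈ e.source := e.open_source.mem_nhds h.2
  have h2 : ∀ᶠ m' in 𝓝 m, ∀ i, Φ m' i ∈ (e' i).source := by
    rw [Filter.eventually_all]
    intro i
    have hc : ContinuousAt (fun m => Φ m i) m :=
      ((continuous_apply i).comp Φ.continuous).continuousAt
    exact hc.eventually ((e' i).open_source.mem_nhds (h' i).2)
  have h3 : ContinuousAt (fun m => asm σ fun i => e' i (Φ m i)) m := by
    refine ContinuousAt.comp (g := asm σ) (continuous_asm σ).continuousAt ?_
    rw [continuousAt_pi]
    intro i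
    have hc : ContinuousAt (fun m => Φ m i) m :=
      ((continuous_apply i).comp Φ.continuous).continuousAt
    exact ContinuousAt.comp (g := e' i) ((e' i).continuousAt (h' i).2) hc
  filter_upwards [h1, h2, h3.eventually hp] with m' a b c
  exact ⟨⟨h.1, a⟩, fun i => ⟨(h' i).1, b i⟩, c⟩

theorem continuous_update_left (i : Fin r) (z : Y i) :
    Continuous fun y : (i : Fin r) → Y i => Function.update y i z :=
  continuous_id.update i continuous_const

/-- the metric of the slice does not depend on the slice -/
theorem pull_slc_const [∀ i, PreconnectedSpace (Y i)] (hw : IsKahler w) (hP : PD σ Φ)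
    (hQ : QD d Φ w Q) (i : Fin r) {z : Y i} {c : Chart (d i) (Y i)} (hc : At c z)
    (y y' : (i : Fin r) → Y i) :
    pullM (slc Φ i y) w c (c z) = pullM (slc Φ i y') w c (c z) := by
  ext a b
  have hl : IsLocallyConstant (fun y : (i : Fin r) → Y i =>
      pullM (slc Φ i y) w c (c z) a b) := by
    rw [IsLocallyConstant.iff_eventually_eq]
    intro y0
    set m0 : M := Φ.symm (Function.update y0 i z) with hm0
    have hΦ0 : Φ m0 = Function.update y0 i z := by rw [hm0, Φ.apply_symm_apply]
    set e : Chart n M := chartAt (Cm n) m0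
    have he : At e m0 := at_chartAt m0
    set e' : (j : Fin r) → Chart (d j) (Y j) :=
      Function.update (fun j => (chartAt (Cm (d j)) (Φ m0 j) : Chart (d j) (Y j))) i c with he'
    have hei : e' i = c := Function.update_self _ _ _
    have h' : ∀ j, At (e' j) (Φ m0 j) := by
      intro j
      by_cases hj : j = i
      · subst hj
        rw [hei, hΦ0, Function.update_self]
        exact hc
      · rw [he', Function.update_of_ne hj]
        exact at_chartAt _
    have hcont : ContinuousAt (fun y : (i : Fin r) → Y i => Φ.symm (Function.update y i z)) y0 :=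
      (Φ.symm.continuous.comp (continuous_update_left i z)).continuousAt
    have hloc := eventually_asm he h' (gP_loc (e := e) (e' := e') hw hP hQ he h' i a b)
    have key : ∀ y : (i : Fin r) → Y i, At e (Φ.symm (Function.update y i z)) →
        (∀ j, At (e' j) (Φ (Φ.symm (Function.update y i z)) j)) →
        pullM (slc Φ i y) w c (c z) a b = gP σ Φ w e e'
          (asm σ fun j => e' j (Φ (Φ.symm (Function.update y i z)) j)) (σ ⟨i, a⟩) (σ ⟨i, b⟩) := by
      intro y h1 h2
      rw [← pull_slc_apply hw.isForm hP h1 h2 i a b]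
      rw [hei, Φ.apply_symm_apply, slc_update, Function.update_self]
    filter_upwards [hcont.eventually hloc] with y hy
    rw [key y hy.1 hy.2.1, key y0 he h']
    refine hy.2.2 ?_
    rw [blk_asm, blk_asm, Φ.apply_symm_apply, hΦ0, Function.update_self, Function.update_self]
  exact hl.apply_eq_of_preconnectedSpace y y'

end

end Vale.Agent.P299.H996.D1
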